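import Crest.Agent.R225.UB.Fejer

/-!
# Row lemmas in the finite model (helper728)

One row = a uniform element `ω = (c, ψ)` of `ZMod P × (Fin m → ZMod P)`, an atom `g : Fin m → ℤ`
has row value `xi ω g = c + ∑ ψ i * g i`.

* `survival` : `E ∏_a f_a (xi g_a) ≤ ∏ c0_a * #(H-bounded affine relations)`.
* `deviation_lower`, `deviation_upper` : tail bounds for `∑_a f_a (xi g_a)` through the weighted
  additive energy `En`.
-/

set_option autoImplicit false

namespace Crest.Agent.R225.UB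

open Finset ZMod

variable {P : ℕ} [NeZero P] {m : ℕ}

/-- Sample space of one row. -/
abbrev RowΩ (P m : ℕ) : Type := ZMod P × (Fin m → ZMod P)

/-- Row value of the atom `g`. -/
def xi (ω : RowΩ P m) (g : Fin m → ℤ) : ZMod P := ω.1 + ∑ i, ω.2 i * (g i : ZMod P)

/-- Average over one row. -/
noncomputable def avg (F : RowΩ P m → ℝ) : ℝ := (∑ ω, F ω) / (P : ℝ) ^ (m + 1)

lemma addChar_sum {α ι : Type*} [AddCommMonoid α] (e : AddChar α ℂ) (s : Finset ι) (h : ι → α) :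
    e (∑ i ∈ s, h i) = ∏ i ∈ s, e (h i) := by
  classical
  induction s using Finset.induction_on with
  | empty => simp
  | insert a s ha ih => rw [sum_insert ha, prod_insert ha, AddChar.map_add_eq_mul, ih]

lemma sum_char (b : ZMod P) : ∑ x : ZMod P, (stdAddChar (x * b) : ℂ) = if b = 0 then (P : ℂ) else 0 := by
  split_ifs with h
  · simp [h, ZMod.card]
  · have := AddChar.sum_eq_zero_of_ne_one (isPrimitive_stdAddChar P (a := b) h)
    simpa [AddChar.mulShift_apply, mul_comm] using this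

lemma sum_char_row (b : ZMod P) (B : Fin m → ZMod P) :
    ∑ ω : RowΩ P m, (stdAddChar (ω.1 * b + ∑ i, ω.2 i * B i) : ℂ) =
      if b = 0 ∧ ∀ i, B i = 0 then (P : ℂ) ^ (m + 1) else 0 := by
  have h1 : ∑ ω : RowΩ P m, (stdAddChar (ω.1 * b + ∑ i, ω.2 i * B i) : ℂ) =
      (∑ x : ZMod P, (stdAddChar (x * b) : ℂ)) * ∏ i, ∑ x : ZMod P, (stdAddChar (x * B i) : ℂ) := by
    rw [prod_univ_sum, Fintype.piFinset_univ, sum_mul_sum, ← Fintype.sum_prod_type']
    refine Fintype.sum_congr _ _ fun ω => ?_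
    rw [AddChar.map_add_eq_mul, addChar_sum]
  rw [h1, sum_char]
  by_cases hb : b = 0
  · by_cases hB : ∀ i, B i = 0
    · rw [if_pos hb, if_pos ⟨hb, hB⟩]
      have : ∏ i, ∑ x : ZMod P, (stdAddChar (x * B i) : ℂ) = (P : ℂ) ^ m := by
        rw [prod_congr rfl (g := fun _ => (P : ℂ)) (fun i _ => by rw [sum_char, if_pos (hB i)])]
        simp
      rw [this]; ring
    · push Not at hB
      obtain ⟨i, hi⟩ := hB
      have : ∏ i, ∑ x : ZMod P, (stdAddChar (x * B i) : ℂ) = 0 :=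
        prod_eq_zero (mem_univ i) (by rw [sum_char, if_neg hi])
      rw [this, mul_zero, if_neg (fun h => hi (h.2 i))]
  · rw [if_neg hb, if_neg (fun h => hb h.1), zero_mul]

section relations

variable {ι : Type*} [Fintype ι] [DecidableEq ι]

/-- `H`-bounded affine integer relations among the (indexed) atoms `g`. -/
noncomputable def relset (g : ι → Fin m → ℤ) (H : ℕ) : Finset (ι → ℤ) :=
  {k ∈ Fintype.piFinset (fun _ : ι => Icc (-(H : ℤ)) H) | ∑ a, k a = 0 ∧ ∀ i, ∑ a, k a * g a i = 0}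

lemma mem_relset {g : ι → Fin m → ℤ} {H : ℕ} {k : ι → ℤ} :
    k ∈ relset g H ↔ (∀ a, |k a| ≤ H) ∧ ∑ a, k a = 0 ∧ ∀ i, ∑ a, k a * g a i = 0 := by
  unfold relset
  rw [mem_filter, Fintype.mem_piFinset]
  refine and_congr_left fun _ => forall_congr' fun a => ?_
  rw [mem_Icc, abs_le]

omit [NeZero P] [DecidableEq ι] in
/-- Atoms with bounded coordinates. -/
lemma sum_eq_zero_of_mod {H R : ℕ} (k : ι → ℤ) (hk : ∀ a, |k a| ≤ H) (h : ι → ℤ)
    (hh : ∀ a, |h a| ≤ R) (hP : Fintype.card ι * (H * R) < P)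
    (h0 : ((∑ a, k a * h a : ℤ) : ZMod P) = 0) : ∑ a, k a * h a = 0 := by
  rw [ZMod.intCast_zmod_eq_zero_iff_dvd] at h0
  refine Int.eq_zero_of_abs_lt_dvd h0 ?_
  calc |∑ a, k a * h a| ≤ ∑ a, |k a * h a| := abs_sum_le_sum_abs _ _
    _ ≤ ∑ a : ι, (H * R : ℤ) := by
      refine sum_le_sum fun a _ => ?_
      rw [abs_mul]
      exact mul_le_mul (hk a) (hh a) (abs_nonneg _) (by positivity)
    _ = (Fintype.card ι * (H * R) : ℕ) := by
      rw [sum_const, card_univ, nsmul_eq_mul]; push_cast; ring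
    _ < P := by exact_mod_cast hP

/-- **Survival bound.** -/
theorem survival (g : ι → Fin m → ℤ) {H R : ℕ} (hR : ∀ a i, |g a i| ≤ R) (hR1 : 1 ≤ R)
    (hP : Fintype.card ι * (H * R) < P)
    (f F : ι → ZMod P → ℝ) (c : ι → ℤ → ℂ) (c0 : ι → ℝ)
    (hf : ∀ a x, 0 ≤ f a x) (hfF : ∀ a x, f a x ≤ F a x)
    (hF : ∀ a x, (F a x : ℂ) = ∑ k ∈ Icc (-(H : ℤ)) H, c a k * stdAddChar ((k : ZMod P) * x))
    (hc : ∀ a k, ‖c a k‖ ≤ c0 a) :
    avg (fun ω : RowΩ P m => ∏ a, f a (xi ω (g a))) ≤ (∏ a, c0 a) * #(relset g H) := by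
  have hP0 : (0 : ℝ) < P := by exact_mod_cast Nat.pos_of_ne_zero (NeZero.ne P)
  have hc0 : ∀ a, 0 ≤ c0 a := fun a => (norm_nonneg _).trans (hc a 0)
  have h1 : ∀ ω : RowΩ P m, ∏ a, f a (xi ω (g a)) ≤ ∏ a, F a (xi ω (g a)) := fun ω =>
    prod_le_prod (fun a _ => hf a _) (fun a _ => hfF a _)
  have h2 : ((∑ ω : RowΩ P m, ∏ a, F a (xi ω (g a)) : ℝ) : ℂ) =
      ∑ k ∈ Fintype.piFinset (fun _ : ι => Icc (-(H : ℤ)) H), (∏ a, c a (k a)) *
        (if ((∑ a, k a : ℤ) : ZMod P) = 0 ∧ ∀ i, ((∑ a, k a * g a i : ℤ) : ZMod P) = 0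
          then (P : ℂ) ^ (m + 1) else 0) := by
    push_cast
    have h3 : ∀ ω : RowΩ P m, ∏ a, (F a (xi ω (g a)) : ℂ) =
        ∑ k ∈ Fintype.piFinset (fun _ : ι => Icc (-(H : ℤ)) H), (∏ a, c a (k a)) *
          stdAddChar (ω.1 * ((∑ a, k a : ℤ) : ZMod P) +
            ∑ i, ω.2 i * ((∑ a, k a * g a i : ℤ) : ZMod P)) := by
      intro ω
      rw [prod_congr rfl fun a _ => hF a _, prod_univ_sum]
      refine sum_congr rfl fun k _ => ?_
      rw [prod_mul_distrib, ← addChar_sum]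
      congr 2
      unfold xi
      push_cast
      simp only [mul_add, sum_add_distrib, mul_sum]
      congr 1
      · exact sum_congr rfl fun a _ => by ring
      · rw [sum_comm]
        refine sum_congr rfl fun i _ => sum_congr rfl fun a _ => by ring
    rw [sum_congr rfl fun ω _ => h3 ω, sum_comm]
    refine sum_congr rfl fun k _ => ?_
    rw [← mul_sum, sum_char_row]
    push_cast
    rfl
  have h4 : (∑ ω : RowΩ P m, ∏ a, F a (xi ω (g a)) : ℝ) ≤
      (∏ a, c0 a) * #(relset g H) * (P : ℝ) ^ (m + 1) := by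
    have h5 : ‖((∑ ω : RowΩ P m, ∏ a, F a (xi ω (g a)) : ℝ) : ℂ)‖ ≤
        (∏ a, c0 a) * #(relset g H) * (P : ℝ) ^ (m + 1) := by
      rw [h2]
      have h6 : ∀ k ∈ Fintype.piFinset (fun _ : ι => Icc (-(H : ℤ)) H),
          ‖(∏ a, c a (k a)) *
            (if ((∑ a, k a : ℤ) : ZMod P) = 0 ∧ ∀ i, ((∑ a, k a * g a i : ℤ) : ZMod P) = 0
              then (P : ℂ) ^ (m + 1) else 0)‖ ≤
          if k ∈ relset g H then (∏ a, c0 a) * (P : ℝ) ^ (m + 1) else 0 := by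
        intro k hk
        have hk' : ∀ a, |k a| ≤ (H : ℤ) := by
          intro a
          rw [Fintype.mem_piFinset] at hk
          have := hk a
          rw [mem_Icc] at this
          exact abs_le.2 this
        split_ifs with hmod hrel hrel
        · rw [norm_mul, norm_prod, norm_pow, Complex.norm_natCast]
          gcongr with a _
          exact hc a _
        · exfalso
          apply hrel
          rw [mem_relset]
          refine ⟨hk', ?_, fun i => sum_eq_zero_of_mod k hk' (fun a => g a i) (fun a => hR a i) hP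
            (hmod.2 i)⟩
          have := sum_eq_zero_of_mod (P := P) (R := R) k hk' (fun _ => 1)
            (fun a => by simpa using (by exact_mod_cast hR1 : (1 : ℤ) ≤ R)) hP
            (by simpa using hmod.1)
          simpa using this
        · rw [mul_zero, norm_zero]
          have := prod_nonneg fun a (_ : a ∈ (univ : Finset ι)) => hc0 a
          positivity
        · rw [mul_zero, norm_zero]
      refine (norm_sum_le _ _).trans ((sum_le_sum h6).trans ?_)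
      rw [← sum_filter, sum_const, nsmul_eq_mul]
      have h7 : {k ∈ Fintype.piFinset (fun _ : ι => Icc (-(H : ℤ)) H) | k ∈ relset g H} =
          relset g H := by
        ext k
        rw [mem_filter]
        exact ⟨fun h => h.2, fun h => ⟨(mem_filter.1 h).1, h⟩⟩
      rw [h7]
      apply le_of_eq; ring
    exact (le_abs_self _).trans (by rwa [Complex.norm_real, Real.norm_eq_abs] at h5)
  unfold avg
  rw [div_le_iff₀ (by positivity)]
  exact (sum_le_sum fun ω _ => h1 ω).trans h4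

/-- Weighted additive energy of order `2s` of the family `g`. -/
noncomputable def En (g : ι → Fin m → ℤ) (w : ι → ℝ) (s : ℕ) : ℝ :=
  ∑ x : Fin s → ι, ∑ y : Fin s → ι,
    if (∀ i, ∑ j, g (x j) i = ∑ j, g (y j) i) then (∏ j, w (x j)) * ∏ j, w (y j) else 0

omit [DecidableEq ι] in
lemma En_nonneg (g : ι → Fin m → ℤ) (w : ι → ℝ) (hw : ∀ a, 0 ≤ w a) (s : ℕ) : 0 ≤ En g w s := by
  unfold En
  refine sum_nonneg fun x _ => sum_nonneg fun y _ => ?_
  split_ifs
  · exact mul_nonneg (prod_nonneg fun _ _ => hw _) (prod_nonneg fun _ _ => hw _)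
  · exact le_rfl

omit [DecidableEq ι] in
/-- Moment of a single harmonic. -/
theorem moment_le [Fact P.Prime] (g : ι → Fin m → ℤ) {R s : ℕ} (hR : ∀ a i, |g a i| ≤ R)
    (hP : 2 * s * R < P) (c : ι → ℂ) (w : ι → ℝ) (hc : ∀ a, ‖c a‖ ≤ w a)
    (k : ℤ) (hk0 : k ≠ 0) (hk : |k| < P) :
    avg (fun ω : RowΩ P m => ‖∑ a, c a * stdAddChar ((k : ZMod P) * xi ω (g a))‖ ^ (2 * s)) ≤
      En g w s := by
  have hP0 : (0 : ℝ) < P := by exact_mod_cast Nat.pos_of_ne_zero (NeZero.ne P)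
  have hw : ∀ a, 0 ≤ w a := fun a => (norm_nonneg _).trans (hc a)
  have hkne : (k : ZMod P) ≠ 0 := by
    intro h
    rw [ZMod.intCast_zmod_eq_zero_iff_dvd] at h
    exact hk0 (Int.eq_zero_of_abs_lt_dvd h hk)
  have h1 : ∀ ω : RowΩ P m,
      ((‖∑ a, c a * stdAddChar ((k : ZMod P) * xi ω (g a))‖ ^ (2 * s) : ℝ) : ℂ) =
      ∑ x : Fin s → ι, ∑ y : Fin s → ι, (∏ j, c (x j)) * (∏ j, (starRingEnd ℂ) (c (y j))) *
        stdAddChar (ω.1 * 0 + ∑ i, ω.2 i *
          ((k : ZMod P) * ((∑ j, g (x j) i - ∑ j, g (y j) i : ℤ) : ZMod P))) := by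
    intro ω
    have e1 : ((‖∑ a, c a * stdAddChar ((k : ZMod P) * xi ω (g a))‖ ^ (2 * s) : ℝ) : ℂ) =
        (∑ a, c a * stdAddChar ((k : ZMod P) * xi ω (g a))) ^ s *
        (∑ a, (starRingEnd ℂ) (c a) * stdAddChar (-((k : ZMod P) * xi ω (g a)))) ^ s := by
      rw [← mul_pow, pow_mul]
      push_cast
      rw [← Complex.mul_conj']
      congr 2
      rw [map_sum]
      refine sum_congr rfl fun a _ => ?_
      rw [map_mul, conj_stdAddChar]
    rw [e1, Fintype.sum_pow, Fintype.sum_pow, sum_mul_sum]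
    refine sum_congr rfl fun x _ => sum_congr rfl fun y _ => ?_
    rw [prod_mul_distrib, prod_mul_distrib, ← addChar_sum, ← addChar_sum]
    have e2 : ω.1 * 0 + ∑ i, ω.2 i *
          ((k : ZMod P) * ((∑ j, g (x j) i - ∑ j, g (y j) i : ℤ) : ZMod P)) =
        (∑ j, (k : ZMod P) * xi ω (g (x j))) + ∑ j, -((k : ZMod P) * xi ω (g (y j))) := by
      unfold xi
      push_cast
      simp only [mul_add, sum_add_distrib, neg_add, sum_const, card_univ, Fintype.card_fin,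
        mul_sub, sum_sub_distrib, sum_neg_distrib, mul_sum]
      rw [sum_comm (s := (univ : Finset (Fin s))) (t := (univ : Finset (Fin m)))
        (f := fun j i => (k : ZMod P) * (ω.2 i * (g (x j) i : ZMod P))),
        sum_comm (s := (univ : Finset (Fin s))) (t := (univ : Finset (Fin m)))
        (f := fun j i => (k : ZMod P) * (ω.2 i * (g (y j) i : ZMod P)))]
      have e3 : ∀ z : Fin s → ι, ∑ i, ∑ j, (k : ZMod P) * (ω.2 i * (g (z j) i : ZMod P)) =
          ∑ i, ∑ j, ω.2 i * ((k : ZMod P) * (g (z j) i : ZMod P)) := fun z =>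
        sum_congr rfl fun i _ => sum_congr rfl fun j _ => by ring
      rw [e3 x, e3 y]
      ring
    rw [e2, AddChar.map_add_eq_mul]
    ring
  have h2 : ((∑ ω : RowΩ P m, ‖∑ a, c a * stdAddChar ((k : ZMod P) * xi ω (g a))‖ ^ (2 * s) : ℝ) : ℂ) =
      ∑ x : Fin s → ι, ∑ y : Fin s → ι, (∏ j, c (x j)) * (∏ j, (starRingEnd ℂ) (c (y j))) *
        (if (∀ i, (k : ZMod P) * ((∑ j, g (x j) i - ∑ j, g (y j) i : ℤ) : ZMod P) = 0)
          then (P : ℂ) ^ (m + 1) else 0) := by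
    rw [Complex.ofReal_sum, sum_congr rfl fun ω _ => h1 ω, sum_comm]
    refine sum_congr rfl fun x _ => ?_
    rw [sum_comm]
    refine sum_congr rfl fun y _ => ?_
    rw [← mul_sum, sum_char_row]
    simp only [true_and]
  have h3 : ‖((∑ ω : RowΩ P m, ‖∑ a, c a * stdAddChar ((k : ZMod P) * xi ω (g a))‖ ^ (2 * s) : ℝ) : ℂ)‖ ≤
      En g w s * (P : ℝ) ^ (m + 1) := by
    rw [h2]
    unfold En
    rw [sum_mul]
    refine (norm_sum_le _ _).trans (sum_le_sum fun x _ => ?_)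
    rw [sum_mul]
    refine (norm_sum_le _ _).trans (sum_le_sum fun y _ => ?_)
    split_ifs with hmod hrel hrel
    · rw [norm_mul, norm_mul, norm_prod, norm_prod, norm_pow, Complex.norm_natCast]
      have i1 : ∏ j, ‖c (x j)‖ ≤ ∏ j, w (x j) :=
        prod_le_prod (fun _ _ => norm_nonneg _) (fun _ _ => hc _)
      have i2 : ∏ j, ‖(starRingEnd ℂ) (c (y j))‖ ≤ ∏ j, w (y j) := by
        refine prod_le_prod (fun _ _ => norm_nonneg _) (fun j _ => ?_)
        rw [RCLike.norm_conj]; exact hc _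
      have i3 : (0 : ℝ) ≤ ∏ j, ‖(starRingEnd ℂ) (c (y j))‖ := prod_nonneg fun _ _ => norm_nonneg _
      have i4 : (0 : ℝ) ≤ ∏ j, w (x j) := prod_nonneg fun _ _ => hw _
      gcongr
    · exfalso
      apply hrel
      intro i
      have := hmod i
      rcases mul_eq_zero.1 this with h | h
      · exact absurd h hkne
      · rw [ZMod.intCast_zmod_eq_zero_iff_dvd] at h
        have hb : |∑ j, g (x j) i - ∑ j, g (y j) i| < P := by
          have b1 : ∀ z : Fin s → ι, |∑ j, g (z j) i| ≤ s * R := by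
            intro z
            calc |∑ j, g (z j) i| ≤ ∑ j, |g (z j) i| := abs_sum_le_sum_abs _ _
              _ ≤ ∑ j : Fin s, (R : ℤ) := sum_le_sum fun j _ => hR _ _
              _ = s * R := by rw [sum_const, card_univ, Fintype.card_fin, nsmul_eq_mul]
          have b2 := b1 x
          have b3 := b1 y
          have b4 : ((2 * s * R : ℕ) : ℤ) < P := by exact_mod_cast hP
          push_cast at b4
          calc |∑ j, g (x j) i - ∑ j, g (y j) i| ≤ |∑ j, g (x j) i| + |∑ j, g (y j) i| := abs_sub _ _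
            _ ≤ s * R + s * R := add_le_add b2 b3
            _ < P := by linarith
        have := Int.eq_zero_of_abs_lt_dvd h hb
        omega
    · rw [mul_zero, norm_zero]
      have := mul_nonneg (prod_nonneg fun j (_ : j ∈ (univ : Finset (Fin s))) => hw (x j))
        (prod_nonneg fun j (_ : j ∈ (univ : Finset (Fin s))) => hw (y j))
      positivity
    · rw [mul_zero, norm_zero, zero_mul]
  unfold avg
  rw [div_le_iff₀ (by positivity)]
  exact (le_abs_self _).trans (by rwa [Complex.norm_real, Real.norm_eq_abs] at h3)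

/-- Probability of an event over one row. -/
noncomputable def pr (A : RowΩ P m → Prop) : ℝ := by
  classical exact (#{ω : RowΩ P m | A ω} : ℝ) / (P : ℝ) ^ (m + 1)

lemma pr_nonneg (A : RowΩ P m → Prop) : 0 ≤ pr A := by
  unfold pr; positivity

lemma pr_mono {A B : RowΩ P m → Prop} (h : ∀ ω, A ω → B ω) : pr A ≤ pr B := by
  classical
  unfold pr
  have : #{ω : RowΩ P m | A ω} ≤ #{ω : RowΩ P m | B ω} :=
    card_le_card (fun ω hω => by rw [mem_filter] at hω ⊢; exact ⟨hω.1, h ω hω.2⟩)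
  gcongr

/-- Markov's inequality for one row. -/
lemma pr_le_avg_div {A : RowΩ P m → Prop} {F : RowΩ P m → ℝ} (hF : ∀ ω, 0 ≤ F ω) {t : ℝ} (ht : 0 < t)
    (h : ∀ ω, A ω → t ≤ F ω) : pr A ≤ avg F / t := by
  classical
  have hP0 : (0 : ℝ) < P := by exact_mod_cast Nat.pos_of_ne_zero (NeZero.ne P)
  unfold pr avg
  rw [div_div, mul_comm, ← div_div]
  have : (#{ω : RowΩ P m | A ω} : ℝ) ≤ (∑ ω, F ω) / t := by
    rw [le_div_iff₀ ht]
    calc (#{ω : RowΩ P m | A ω} : ℝ) * t = ∑ ω ∈ {ω : RowΩ P m | A ω}, t := by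
          rw [sum_const, nsmul_eq_mul]
      _ ≤ ∑ ω ∈ {ω : RowΩ P m | A ω}, F ω := sum_le_sum fun ω hω => h ω (mem_filter.1 hω).2
      _ ≤ ∑ ω, F ω := sum_le_sum_of_subset_of_nonneg (filter_subset _ _) (fun ω _ _ => hF ω)
  gcongr

lemma norm_sum_pow_le {κ : Type*} (S : Finset κ) (z : κ → ℂ) (n : ℕ) :
    ‖∑ k ∈ S, z k‖ ^ (n + 1) ≤ (#S : ℝ) ^ n * ∑ k ∈ S, ‖z k‖ ^ (n + 1) := by
  rcases S.eq_empty_or_nonempty with rfl | hS
  · simp
  have hcard : (0 : ℝ) < #S := by exact_mod_cast hS.card_pos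
  have h := pow_sum_div_card_le_sum_pow (s := S) (f := fun k => ‖z k‖) (fun _ _ => norm_nonneg _) n
  rw [div_le_iff₀ (by positivity)] at h
  calc ‖∑ k ∈ S, z k‖ ^ (n + 1) ≤ (∑ k ∈ S, ‖z k‖) ^ (n + 1) := by
        gcongr; exact norm_sum_le _ _
    _ ≤ _ := by rw [mul_comm]; exact h

omit [DecidableEq ι] in
/-- Tail bound for the oscillating part of a sum of trigonometric polynomials. -/
theorem osc_tail [Fact P.Prime] (g : ι → Fin m → ℤ) {R s H : ℕ} (hR : ∀ a i, |g a i| ≤ R)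
    (hP : 2 * s * R < P) (hH : H < P) (hs : 0 < s) (hH0 : 0 < H)
    (F : ι → ZMod P → ℝ) (c : ι → ℤ → ℂ) (c0 w : ι → ℝ)
    (hF : ∀ a x, (F a x : ℂ) = ∑ k ∈ Icc (-(H : ℤ)) H, c a k * stdAddChar ((k : ZMod P) * x))
    (hc0 : ∀ a, c a 0 = c0 a) (hc : ∀ a k, k ≠ 0 → ‖c a k‖ ≤ w a) {t : ℝ} (ht : 0 < t) :
    pr (fun ω : RowΩ P m => t ≤ |∑ a, F a (xi ω (g a)) - ∑ a, c0 a|) ≤
      (2 * H / t) ^ (2 * s) * En g w s := by
  have hP0 : (0 : ℝ) < P := by exact_mod_cast Nat.pos_of_ne_zero (NeZero.ne P)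
  set S : Finset ℤ := (Icc (-(H : ℤ)) H).erase 0 with hSdef
  have hScard : #S = 2 * H := by
    rw [hSdef, card_erase_of_mem (by rw [mem_Icc]; omega), Int.card_Icc]; omega
  set Z : ℤ → RowΩ P m → ℂ := fun k ω => ∑ a, c a k * stdAddChar ((k : ZMod P) * xi ω (g a)) with hZ
  have hosc : ∀ ω : RowΩ P m, ((∑ a, F a (xi ω (g a)) - ∑ a, c0 a : ℝ) : ℂ) = ∑ k ∈ S, Z k ω := by
    intro ω
    push_cast
    rw [sum_congr rfl fun a _ => hF a _, sum_comm,
      ← add_sum_erase (Icc (-(H : ℤ)) H) _ (show (0 : ℤ) ∈ Icc (-(H : ℤ)) H by rw [mem_Icc]; omega)]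
    have : ∑ a, c a 0 * (stdAddChar (((0 : ℤ) : ZMod P) * xi ω (g a)) : ℂ) = ∑ a, (c0 a : ℂ) := by
      refine sum_congr rfl fun a _ => ?_
      rw [hc0]; simp
    rw [this]
    ring
  obtain ⟨n, hn⟩ : ∃ n, 2 * s = n + 1 := ⟨2 * s - 1, by omega⟩
  have h1 : pr (fun ω : RowΩ P m => t ≤ |∑ a, F a (xi ω (g a)) - ∑ a, c0 a|) ≤
      avg (fun ω : RowΩ P m => (2 * H : ℝ) ^ n * ∑ k ∈ S, ‖Z k ω‖ ^ (2 * s)) / t ^ (2 * s) := by
    refine pr_le_avg_div (fun ω => by positivity) (by positivity) fun ω hω => ?_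
    have h2 : |∑ a, F a (xi ω (g a)) - ∑ a, c0 a| = ‖∑ k ∈ S, Z k ω‖ := by
      rw [← hosc, Complex.norm_real, Real.norm_eq_abs]
    rw [h2] at hω
    calc t ^ (2 * s) ≤ ‖∑ k ∈ S, Z k ω‖ ^ (2 * s) := by gcongr
      _ = ‖∑ k ∈ S, Z k ω‖ ^ (n + 1) := by rw [hn]
      _ ≤ (#S : ℝ) ^ n * ∑ k ∈ S, ‖Z k ω‖ ^ (n + 1) := norm_sum_pow_le _ _ _
      _ = _ := by rw [hScard, ← hn]; push_cast; rfl
  have h3 : avg (fun ω : RowΩ P m => (2 * H : ℝ) ^ n * ∑ k ∈ S, ‖Z k ω‖ ^ (2 * s)) =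
      (2 * H : ℝ) ^ n * ∑ k ∈ S, avg (fun ω : RowΩ P m => ‖Z k ω‖ ^ (2 * s)) := by
    unfold avg
    rw [← mul_sum, sum_comm, ← sum_div]
    ring
  have h4 : ∀ k ∈ S, avg (fun ω : RowΩ P m => ‖Z k ω‖ ^ (2 * s)) ≤ En g w s := by
    intro k hk
    rw [hSdef, mem_erase, mem_Icc] at hk
    refine moment_le g hR hP (fun a => c a k) w (fun a => hc a k hk.1) k hk.1 ?_
    rw [abs_lt]; constructor <;> omega
  refine h1.trans ?_
  rw [h3]
  have h5 : ∑ k ∈ S, avg (fun ω : RowΩ P m => ‖Z k ω‖ ^ (2 * s)) ≤ (2 * H : ℝ) * En g w s := by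
    refine (sum_le_sum h4).trans (le_of_eq ?_)
    rw [sum_const, hScard, nsmul_eq_mul]; push_cast; ring
  have h6 : (2 * H : ℝ) ^ (2 * s) = (2 * H : ℝ) ^ n * (2 * H) := by rw [hn, pow_succ]
  rw [div_pow, h6, div_mul_eq_mul_div, mul_assoc]
  gcongr

omit [DecidableEq ι] in
/-- **Lower deviation.** If `G a ≤ f a` with `G a` a trigonometric polynomial of degree `≤ H`. -/
theorem deviation_lower [Fact P.Prime] (g : ι → Fin m → ℤ) {R s H : ℕ} (hR : ∀ a i, |g a i| ≤ R)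
    (hP : 2 * s * R < P) (hH : H < P) (hs : 0 < s) (hH0 : 0 < H)
    (f G : ι → ZMod P → ℝ) (c : ι → ℤ → ℂ) (c0 w : ι → ℝ)
    (hG : ∀ a x, (G a x : ℂ) = ∑ k ∈ Icc (-(H : ℤ)) H, c a k * stdAddChar ((k : ZMod P) * x))
    (hGf : ∀ a x, G a x ≤ f a x)
    (hc0 : ∀ a, c a 0 = c0 a) (hc : ∀ a k, k ≠ 0 → ‖c a k‖ ≤ w a) {t : ℝ} (ht : 0 < t) :
    pr (fun ω : RowΩ P m => ∑ a, f a (xi ω (g a)) ≤ ∑ a, c0 a - t) ≤
      (2 * H / t) ^ (2 * s) * En g w s := by
  refine (pr_mono fun ω hω => ?_).trans (osc_tail g hR hP hH hs hH0 G c c0 w hG hc0 hc ht)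
  have : ∑ a, G a (xi ω (g a)) ≤ ∑ a, f a (xi ω (g a)) := sum_le_sum fun a _ => hGf a _
  rw [le_abs']
  left; linarith

omit [DecidableEq ι] in
/-- **Upper deviation.** If `f a ≤ F a` with `F a` a trigonometric polynomial of degree `≤ H`. -/
theorem deviation_upper [Fact P.Prime] (g : ι → Fin m → ℤ) {R s H : ℕ} (hR : ∀ a i, |g a i| ≤ R)
    (hP : 2 * s * R < P) (hH : H < P) (hs : 0 < s) (hH0 : 0 < H)
    (f F : ι → ZMod P → ℝ) (c : ι → ℤ → ℂ) (c0 w : ι → ℝ)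
    (hF : ∀ a x, (F a x : ℂ) = ∑ k ∈ Icc (-(H : ℤ)) H, c a k * stdAddChar ((k : ZMod P) * x))
    (hfF : ∀ a x, f a x ≤ F a x)
    (hc0 : ∀ a, c a 0 = c0 a) (hc : ∀ a k, k ≠ 0 → ‖c a k‖ ≤ w a) {t : ℝ} (ht : 0 < t) :
    pr (fun ω : RowΩ P m => ∑ a, c0 a + t ≤ ∑ a, f a (xi ω (g a))) ≤
      (2 * H / t) ^ (2 * s) * En g w s := by
  refine (pr_mono fun ω hω => ?_).trans (osc_tail g hR hP hH hs hH0 F c c0 w hF hc0 hc ht)
  have : ∑ a, f a (xi ω (g a)) ≤ ∑ a, F a (xi ω (g a)) := sum_le_sum fun a _ => hfF a _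
  rw [le_abs']
  right; linarith

end relations

end Crest.Agent.R225.UB
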