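import Mathlib

/-!
# Fejér majorants and minorants on `ZMod P` (helper728)
-/

set_option autoImplicit false

namespace Crest.Agent.R225.UB

open Finset ZMod

variable {P : ℕ} [NeZero P]

/-- Fejér kernel on `ZMod P` of degree `H`. -/
noncomputable def fejer (H : ℕ) (x : ZMod P) : ℝ :=
  ‖∑ j ∈ range (H + 1), (stdAddChar ((j : ZMod P) * x) : ℂ)‖ ^ 2 / (H + 1)

/-- Convolution with the Fejér kernel (mean normalised). -/
noncomputable def fconv (H : ℕ) (f : ZMod P → ℝ) (x : ZMod P) : ℝ :=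
  (∑ u, fejer H (x - u) * f u) / P

/-- Fourier coefficients of `fconv`. -/
noncomputable def fcoef (H : ℕ) (f : ZMod P → ℝ) (k : ℤ) : ℂ :=
  (((#{p ∈ range (H + 1) ×ˢ range (H + 1) | (p.1 : ℤ) - p.2 = k} : ℕ) : ℂ) / (H + 1)) *
    ((∑ u, stdAddChar (-((k : ZMod P) * u)) * (f u : ℂ)) / P)

lemma fejer_nonneg (H : ℕ) (x : ZMod P) : 0 ≤ fejer H x := by
  unfold fejer; positivity

lemma conj_stdAddChar (x : ZMod P) : (starRingEnd ℂ) (stdAddChar x) = stdAddChar (-x) := by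
  rw [stdAddChar_apply, stdAddChar_apply, ← Circle.coe_inv_eq_conj, AddChar.map_neg_eq_inv]

lemma norm_stdAddChar (x : ZMod P) : ‖(stdAddChar x : ℂ)‖ = 1 := by
  rw [stdAddChar_apply]; exact Circle.norm_coe _

lemma fejer_eq (H : ℕ) (x : ZMod P) :
    (fejer H x : ℂ) = (∑ p ∈ range (H + 1) ×ˢ range (H + 1),
      (stdAddChar ((((p.1 : ℤ) - p.2 : ℤ) : ZMod P) * x) : ℂ)) / (H + 1) := by
  unfold fejer
  push_cast
  rw [← Complex.conj_mul', map_sum]
  congr 1
  rw [mul_comm, sum_product, sum_mul_sum]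
  refine sum_congr rfl fun i _ => sum_congr rfl fun j _ => ?_
  rw [conj_stdAddChar, ← AddChar.map_add_eq_mul]
  congr 1
  push_cast
  ring

lemma fconv_eq (H : ℕ) (f : ZMod P → ℝ) (x : ZMod P) :
    (fconv H f x : ℂ) = ∑ k ∈ Icc (-(H : ℤ)) H, fcoef H f k * stdAddChar ((k : ZMod P) * x) := by
  have hmaps : ∀ p ∈ range (H + 1) ×ˢ range (H + 1), ((p.1 : ℤ) - p.2) ∈ Icc (-(H : ℤ)) H := by
    intro p hp
    simp only [mem_product, mem_range] at hp
    rw [mem_Icc]; omega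
  have h1 : ∀ u : ZMod P, ((fejer H (x - u) * f u : ℝ) : ℂ) =
      (∑ k ∈ Icc (-(H : ℤ)) H, (((#{p ∈ range (H + 1) ×ˢ range (H + 1) | (p.1 : ℤ) - p.2 = k} : ℕ) : ℂ)
        / (H + 1)) * (stdAddChar (-((k : ZMod P) * u)) * (f u : ℂ)) * stdAddChar ((k : ZMod P) * x)) := by
    intro u
    push_cast
    rw [fejer_eq, ← sum_fiberwise_of_maps_to hmaps, sum_div, sum_mul]
    refine sum_congr rfl fun k _ => ?_
    rw [sum_congr rfl (g := fun _ => (stdAddChar ((k : ZMod P) * (x - u)) : ℂ))]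
    · rw [sum_const, nsmul_eq_mul]
      have : (stdAddChar ((k : ZMod P) * (x - u)) : ℂ) =
          stdAddChar (-((k : ZMod P) * u)) * stdAddChar ((k : ZMod P) * x) := by
        rw [← AddChar.map_add_eq_mul]; congr 1; ring
      rw [this]; ring
    · intro p hp
      rw [mem_filter] at hp
      rw [hp.2]
  unfold fconv fcoef
  push_cast
  have h2 : (∑ u, (fejer H (x - u) : ℂ) * (f u : ℂ)) = ∑ u, ((fejer H (x - u) * f u : ℝ) : ℂ) := by
    push_cast; rfl
  rw [h2, sum_congr rfl fun u _ => h1 u, sum_comm, sum_div]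
  refine sum_congr rfl fun k _ => ?_
  rw [← sum_mul, ← mul_sum]
  ring

lemma card_diff_le (H : ℕ) (k : ℤ) :
    #{p ∈ range (H + 1) ×ˢ range (H + 1) | (p.1 : ℤ) - p.2 = k} ≤ H + 1 := by
  calc _ ≤ #(range (H + 1)) := by
        refine card_le_card_of_injOn (fun p => p.1) ?_ ?_
        · intro p hp
          simp only [coe_filter, mem_product, Set.mem_ofPred_eq] at hp
          exact hp.1.1
        · intro p hp q hq h
          simp only [coe_filter, mem_product, Set.mem_ofPred_eq] at hp hq h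
          ext
          · exact h
          · have := hp.2; have := hq.2; omega
    _ = H + 1 := card_range _

lemma card_diff_zero (H : ℕ) :
    #{p ∈ range (H + 1) ×ˢ range (H + 1) | (p.1 : ℤ) - p.2 = 0} = H + 1 := by
  have : {p ∈ range (H + 1) ×ˢ range (H + 1) | (p.1 : ℤ) - p.2 = 0} =
      (range (H + 1)).image (fun i => (i, i)) := by
    ext ⟨a, b⟩
    simp only [mem_filter, mem_product, mem_range, mem_image, Prod.mk.injEq]
    constructor
    · rintro ⟨⟨h1, h2⟩, h3⟩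
      exact ⟨a, h1, rfl, by omega⟩
    · rintro ⟨c, hc, rfl, rfl⟩
      exact ⟨⟨hc, hc⟩, by omega⟩
  rw [this, card_image_of_injective _ (fun a b h => (Prod.mk.inj h).1), card_range]

lemma norm_fcoef_le (H : ℕ) (f : ZMod P → ℝ) (hf : ∀ x, 0 ≤ f x) (k : ℤ) :
    ‖fcoef H f k‖ ≤ (∑ u, f u) / P := by
  unfold fcoef
  rw [norm_mul, norm_div, norm_div, Complex.norm_natCast, Complex.norm_natCast]
  have h1 : ‖((H : ℂ) + 1)‖ = (H : ℝ) + 1 := by
    have : ((H : ℂ) + 1) = ((H + 1 : ℕ) : ℂ) := by push_cast; rfl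
    rw [this, Complex.norm_natCast]; push_cast; rfl
  rw [h1]
  have h2 : ((#{p ∈ range (H + 1) ×ˢ range (H + 1) | (p.1 : ℤ) - p.2 = k} : ℕ) : ℝ) / (H + 1) ≤ 1 := by
    rw [div_le_one (by positivity)]
    exact_mod_cast card_diff_le H k
  have h3 : ‖∑ u, stdAddChar (-((k : ZMod P) * u)) * (f u : ℂ)‖ ≤ ∑ u, f u := by
    refine (norm_sum_le _ _).trans (sum_le_sum fun u _ => ?_)
    rw [norm_mul, norm_stdAddChar, one_mul, Complex.norm_real, Real.norm_of_nonneg (hf u)]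
  calc _ ≤ 1 * ((∑ u, f u) / P) := by
        gcongr
    _ = _ := one_mul _

lemma fcoef_zero (H : ℕ) (f : ZMod P → ℝ) :
    fcoef H f 0 = (((∑ u, f u) / P : ℝ) : ℂ) := by
  unfold fcoef
  rw [card_diff_zero]
  have : (((H + 1 : ℕ) : ℂ) / ((H : ℂ) + 1)) = 1 := by
    push_cast
    exact div_self (by exact_mod_cast Nat.succ_ne_zero H)
  rw [this, one_mul]
  push_cast
  simp

lemma fcoef_smul (H : ℕ) (f : ZMod P → ℝ) (c : ℝ) (k : ℤ) :
    fcoef H (fun x => c * f x) k = c * fcoef H f k := by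
  unfold fcoef
  push_cast
  have : ∑ u, (stdAddChar (-((k : ZMod P) * u)) : ℂ) * ((c : ℂ) * (f u : ℂ)) =
      c * ∑ u, (stdAddChar (-((k : ZMod P) * u)) : ℂ) * (f u : ℂ) := by
    rw [mul_sum]; exact sum_congr rfl fun u _ => by ring
  rw [this]; ring

lemma sum_fejer {H : ℕ} (hH : H < P) : ∑ x : ZMod P, fejer H x = P := by
  have h : ((∑ x : ZMod P, fejer H x : ℝ) : ℂ) = (P : ℂ) := by
    push_cast
    rw [sum_congr rfl fun x _ => fejer_eq H x, ← sum_div, sum_comm]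
    have h1 : ∀ p ∈ range (H + 1) ×ˢ range (H + 1),
        ∑ x : ZMod P, (stdAddChar ((((p.1 : ℤ) - p.2 : ℤ) : ZMod P) * x) : ℂ) =
          if (p.1 : ℤ) - p.2 = 0 then (P : ℂ) else 0 := by
      intro p hp
      simp only [mem_product, mem_range] at hp
      split_ifs with h0
      · rw [h0]
        simp [ZMod.card]
      · refine AddChar.sum_eq_zero_of_ne_one
          (isPrimitive_stdAddChar P (a := (((p.1 : ℤ) - p.2 : ℤ) : ZMod P)) ?_)
        intro hz
        rw [ZMod.intCast_zmod_eq_zero_iff_dvd] at hz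
        have := Int.eq_zero_of_abs_lt_dvd hz (by rw [abs_lt]; constructor <;> omega)
        exact h0 this
    rw [sum_congr rfl h1, ← sum_filter, sum_const, card_diff_zero]
    rw [nsmul_eq_mul]
    push_cast
    have : ((H : ℂ) + 1) ≠ 0 := by exact_mod_cast Nat.succ_ne_zero H
    field_simp
  exact_mod_cast h

lemma norm_geom_le {n : ℕ} {z : ℂ} (hz : ‖z‖ = 1) (h1 : z ≠ 1) :
    ‖∑ j ∈ range n, z ^ j‖ ≤ 2 / ‖z - 1‖ := by
  rw [geom_sum_eq h1, norm_div]
  have : ‖z ^ n - 1‖ ≤ 2 := by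
    calc ‖z ^ n - 1‖ ≤ ‖z ^ n‖ + ‖(1 : ℂ)‖ := norm_sub_le _ _
      _ = 2 := by rw [norm_pow, hz]; norm_num
  gcongr

lemma norm_stdAddChar_sub_one (d : ℤ) (hd : 2 * |d| ≤ P) :
    4 * |(d : ℝ)| / P ≤ ‖(stdAddChar ((d : ZMod P)) : ℂ) - 1‖ := by
  have hP : (0 : ℝ) < P := by exact_mod_cast Nat.pos_of_ne_zero (NeZero.ne P)
  rw [stdAddChar_coe]
  have h1 : (2 * (Real.pi : ℂ) * Complex.I * d / P) = Complex.I * ((2 * Real.pi * d / P : ℝ) : ℂ) := by
    push_cast; ring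
  rw [h1, Complex.norm_exp_I_mul_ofReal_sub_one, Real.norm_eq_abs, abs_mul, abs_two]
  have h2 : 2 * Real.pi * d / P / 2 = Real.pi * d / P := by ring
  rw [h2]
  have h3 : |Real.sin (Real.pi * d / P)| = Real.sin (Real.pi * |(d : ℝ)| / P) := by
    rcases le_total 0 (d : ℝ) with h | h
    · rw [abs_of_nonneg h]
      refine abs_of_nonneg (Real.sin_nonneg_of_nonneg_of_le_pi (by positivity) ?_)
      have : (d : ℝ) ≤ P := by
        have h' : (2 * |d| : ℤ) ≤ P := hd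
        have : (|d| : ℤ) ≤ P := by have := abs_nonneg d; omega
        have h4 := le_trans (le_abs_self d) this
        exact_mod_cast h4
      rw [div_le_iff₀ hP]
      exact mul_le_mul_of_nonneg_left this Real.pi_pos.le
    · rw [abs_of_nonpos h]
      have : Real.pi * d / P = -(Real.pi * (-d) / P) := by ring
      rw [this, Real.sin_neg, abs_neg]
      refine abs_of_nonneg (Real.sin_nonneg_of_nonneg_of_le_pi ?_ ?_)
      · have : (0 : ℝ) ≤ -d := by linarith
        positivity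
      · have : -(d : ℝ) ≤ P := by
          have h' : (2 * |d| : ℤ) ≤ P := hd
          have : (|d| : ℤ) ≤ P := by have := abs_nonneg d; omega
          have h4 := le_trans (neg_le_abs d) this
          exact_mod_cast h4
        rw [div_le_iff₀ hP]
        exact mul_le_mul_of_nonneg_left this Real.pi_pos.le
  rw [h3]
  have h5 : (2 * |(d : ℝ)|) ≤ P := by exact_mod_cast hd
  have h4 := Real.mul_le_sin (x := Real.pi * |(d : ℝ)| / P) (by positivity) (by
    rw [div_le_div_iff₀ hP two_pos]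
    nlinarith [Real.pi_pos])
  have h6 : 2 / Real.pi * (Real.pi * |(d : ℝ)| / P) = 2 * |(d : ℝ)| / P := by
    field_simp
  rw [h6] at h4
  calc 4 * |(d : ℝ)| / P = 2 * (2 * |(d : ℝ)| / P) := by ring
    _ ≤ _ := by linarith

lemma fejer_le (H : ℕ) (d : ℤ) (hd0 : d ≠ 0) (hd : 2 * |d| ≤ P) :
    fejer H (d : ZMod P) ≤ (P : ℝ) ^ 2 / (4 * (H + 1) * (d : ℝ) ^ 2) := by
  have hP : (0 : ℝ) < P := by exact_mod_cast Nat.pos_of_ne_zero (NeZero.ne P)
  have hd' : (0 : ℝ) < |(d : ℝ)| := by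
    rw [abs_pos]; exact_mod_cast hd0
  unfold fejer
  have h1 : ∑ j ∈ range (H + 1), (stdAddChar ((j : ZMod P) * (d : ZMod P)) : ℂ) =
      ∑ j ∈ range (H + 1), (stdAddChar (d : ZMod P) : ℂ) ^ j := by
    refine sum_congr rfl fun j _ => ?_
    rw [← AddChar.map_nsmul_eq_pow, nsmul_eq_mul]
  have h2 := norm_stdAddChar_sub_one (P := P) d hd
  have h3 : (0 : ℝ) < 4 * |(d : ℝ)| / P := by positivity
  have hne : (stdAddChar (d : ZMod P) : ℂ) ≠ 1 := by
    intro h
    rw [h, sub_self, norm_zero] at h2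
    linarith
  have h4 : ‖∑ j ∈ range (H + 1), (stdAddChar ((j : ZMod P) * (d : ZMod P)) : ℂ)‖ ≤
      P / (2 * |(d : ℝ)|) := by
    rw [h1]
    refine (norm_geom_le (norm_stdAddChar _) hne).trans ?_
    calc 2 / ‖(stdAddChar (d : ZMod P) : ℂ) - 1‖ ≤ 2 / (4 * |(d : ℝ)| / P) := by gcongr
      _ = P / (2 * |(d : ℝ)|) := by field_simp; ring
  calc _ ≤ (P / (2 * |(d : ℝ)|)) ^ 2 / (H + 1) := by gcongr
    _ = _ := by
      rw [div_pow, mul_pow, sq_abs]
      field_simp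
      ring

lemma sum_tail_le (H r : ℕ) (hr : 0 < r) :
    ∑ x ∈ (univ : Finset (ZMod P)) with r < x.valMinAbs.natAbs, fejer H x ≤
      (P : ℝ) ^ 2 / (2 * (H + 1) * r) := by
  have hP : (0 : ℝ) < P := by exact_mod_cast Nat.pos_of_ne_zero (NeZero.ne P)
  have hr' : (0 : ℝ) < r := by exact_mod_cast hr
  have hmaps : ∀ x ∈ ({x ∈ (univ : Finset (ZMod P)) | r < x.valMinAbs.natAbs}),
      x.valMinAbs.natAbs ∈ Ioc r (P / 2) := by
    intro x hx
    rw [mem_filter] at hx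
    rw [mem_Ioc]
    exact ⟨hx.2, ZMod.natAbs_valMinAbs_le x⟩
  rw [← sum_fiberwise_of_maps_to hmaps]
  have h1 : ∀ n ∈ Ioc r (P / 2),
      ∑ x ∈ ({x ∈ (univ : Finset (ZMod P)) | r < x.valMinAbs.natAbs}) with x.valMinAbs.natAbs = n,
        fejer H x ≤ (P : ℝ) ^ 2 / (2 * (H + 1)) * ((n : ℝ) ^ 2)⁻¹ := by
    intro n hn
    rw [mem_Ioc] at hn
    have hn0 : 0 < n := lt_trans hr hn.1
    have hsub : ({x ∈ ({x ∈ (univ : Finset (ZMod P)) | r < x.valMinAbs.natAbs}) |
        x.valMinAbs.natAbs = n}) ⊆ {((n : ℤ) : ZMod P), ((-(n : ℤ) : ℤ) : ZMod P)} := by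
      intro x hx
      rw [mem_filter] at hx
      rw [mem_insert, mem_singleton]
      rcases Int.natAbs_eq x.valMinAbs with h | h
      · left; rw [← ZMod.coe_valMinAbs x, h, hx.2]
      · right; rw [← ZMod.coe_valMinAbs x, h, hx.2]
    have hcard : ({x ∈ ({x ∈ (univ : Finset (ZMod P)) | r < x.valMinAbs.natAbs}) |
        x.valMinAbs.natAbs = n}).card ≤ 2 := (card_le_card hsub).trans card_le_two
    have hval : ∀ x ∈ ({x ∈ ({x ∈ (univ : Finset (ZMod P)) | r < x.valMinAbs.natAbs}) |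
        x.valMinAbs.natAbs = n}), fejer H x ≤ (P : ℝ) ^ 2 / (4 * (H + 1) * (n : ℝ) ^ 2) := by
      intro x hx
      have hx' := hsub hx
      rw [mem_insert, mem_singleton] at hx'
      have hb : 2 * |((n : ℤ))| ≤ P := by
        rw [Nat.abs_cast]; omega
      rcases hx' with h | h
      · rw [h]
        have := fejer_le (P := P) H (n : ℤ) (by omega) hb
        simpa using this
      · rw [h]
        have := fejer_le (P := P) H (-(n : ℤ)) (by omega) (by rwa [abs_neg])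
        simpa using this
    calc _ ≤ ∑ x ∈ ({x ∈ ({x ∈ (univ : Finset (ZMod P)) | r < x.valMinAbs.natAbs}) |
        x.valMinAbs.natAbs = n}), (P : ℝ) ^ 2 / (4 * (H + 1) * (n : ℝ) ^ 2) := sum_le_sum hval
      _ ≤ 2 * ((P : ℝ) ^ 2 / (4 * (H + 1) * (n : ℝ) ^ 2)) := by
        rw [sum_const, nsmul_eq_mul]
        gcongr
        exact_mod_cast hcard
      _ = _ := by
        have : (n : ℝ) ≠ 0 := by exact_mod_cast hn0.ne'
        field_simp; ring
  refine (sum_le_sum h1).trans ?_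
  rw [← mul_sum]
  rcases le_total r (P / 2) with h | h
  · have h2 := sum_Ioc_inv_sq_le_sub (α := ℝ) hr.ne' h
    calc _ ≤ (P : ℝ) ^ 2 / (2 * (H + 1)) * ((r : ℝ)⁻¹ - ((P / 2 : ℕ) : ℝ)⁻¹) := by gcongr
      _ ≤ (P : ℝ) ^ 2 / (2 * (H + 1)) * (r : ℝ)⁻¹ := by
        gcongr
        have : (0 : ℝ) ≤ ((P / 2 : ℕ) : ℝ)⁻¹ := by positivity
        linarith
      _ = _ := by field_simp
  · rw [Ioc_eq_empty (by omega), sum_empty, mul_zero]
    positivity

/-- Cyclic total variation. -/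
noncomputable def cvar (f : ZMod P → ℝ) : ℝ := ∑ x, |f (x + 1) - f x|

lemma cvar_nonneg (f : ZMod P → ℝ) : 0 ≤ cvar f := sum_nonneg fun _ _ => abs_nonneg _

/-- Local variation on `[x-r, x+r]`. -/
noncomputable def lvar (r : ℕ) (f : ZMod P → ℝ) (x : ZMod P) : ℝ :=
  ∑ v ∈ Ico (-(r : ℤ)) r, |f (x + v + 1) - f (x + v)|

omit [NeZero P] in
lemma abs_sub_le_lvar (r : ℕ) (f : ZMod P → ℝ) (x : ZMod P) (u : ℤ) (hu : |u| ≤ r) :
    |f (x + u) - f x| ≤ lvar r f x := by
  have key : ∀ n : ℕ, |f (x + n) - f x| ≤ ∑ v ∈ Ico (0 : ℤ) n, |f (x + v + 1) - f (x + v)| := by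
    intro n
    induction n with
    | zero => simp
    | succ n ih =>
      have : Ico (0 : ℤ) ((n + 1 : ℕ) : ℤ) = insert (n : ℤ) (Ico 0 (n : ℤ)) := by
        ext a; simp only [mem_Ico, mem_insert]; push_cast; omega
      rw [this, sum_insert (by simp)]
      have h2 : f (x + ((n + 1 : ℕ) : ZMod P)) - f x =
          (f (x + ((n : ℤ) : ZMod P) + 1) - f (x + ((n : ℤ) : ZMod P))) + (f (x + n) - f x) := by
        push_cast; rw [add_assoc]; ring
      rw [h2]
      exact (abs_add_le _ _).trans (add_le_add le_rfl ih)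
  have key2 : ∀ n : ℕ, |f (x - n) - f x| ≤ ∑ v ∈ Ico (-(n : ℤ)) 0, |f (x + v + 1) - f (x + v)| := by
    intro n
    induction n with
    | zero => simp
    | succ n ih =>
      have : Ico (-((n + 1 : ℕ) : ℤ)) 0 = insert (-((n + 1 : ℕ) : ℤ)) (Ico (-(n : ℤ)) 0) := by
        ext a; simp only [mem_Ico, mem_insert]; push_cast; omega
      rw [this, sum_insert (by simp)]
      have h2 : f (x - ((n + 1 : ℕ) : ZMod P)) - f x =
          -(f (x + ((-((n + 1 : ℕ) : ℤ) : ℤ) : ZMod P) + 1) - f (x + ((-((n + 1 : ℕ) : ℤ) : ℤ) : ZMod P)))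
            + (f (x - n) - f x) := by
        have e1 : x + ((-((n + 1 : ℕ) : ℤ) : ℤ) : ZMod P) + 1 = x - n := by push_cast; ring
        have e2 : x + ((-((n + 1 : ℕ) : ℤ) : ℤ) : ZMod P) = x - ((n + 1 : ℕ) : ZMod P) := by
          push_cast; ring
        rw [e1, e2]; ring
      rw [h2]
      refine (abs_add_le _ _).trans (add_le_add ?_ ih)
      rw [abs_neg]
  have hpos : ∀ v ∈ Ico (-(r : ℤ)) r, 0 ≤ |f (x + v + 1) - f (x + v)| := fun _ _ => abs_nonneg _
  rw [abs_le] at hu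
  rcases le_total 0 u with h | h
  · obtain ⟨n, rfl⟩ := Int.eq_ofNat_of_zero_le h
    have := key n
    refine le_trans (by simpa using this) ?_
    unfold lvar
    refine sum_le_sum_of_subset_of_nonneg ?_ (fun v hv _ => hpos v hv)
    intro a ha
    rw [mem_Ico] at ha ⊢
    omega
  · obtain ⟨n, hn⟩ := Int.eq_ofNat_of_zero_le (neg_nonneg.2 h)
    have hu' : u = -(n : ℤ) := by omega
    have := key2 n
    rw [hu']
    have e1 : x + ((-(n : ℤ) : ℤ) : ZMod P) = x - n := by push_cast; ring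
    rw [e1]
    refine this.trans ?_
    unfold lvar
    refine sum_le_sum_of_subset_of_nonneg ?_ (fun v hv _ => hpos v hv)
    intro a ha
    rw [mem_Ico] at ha ⊢
    omega

lemma sum_lvar (r : ℕ) (f : ZMod P → ℝ) : ∑ x, lvar r f x = 2 * r * cvar f := by
  unfold lvar
  rw [sum_comm]
  have h1 : ∀ v ∈ Ico (-(r : ℤ)) r, ∑ x : ZMod P, |f (x + v + 1) - f (x + v)| = cvar f := by
    intro v _
    unfold cvar
    exact Fintype.sum_equiv (Equiv.addRight (v : ZMod P)) _ _ fun x => rfl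
  rw [sum_congr rfl h1, sum_const, Int.card_Ico, nsmul_eq_mul]
  have : (((r : ℤ) - -(r : ℤ)).toNat : ℝ) = 2 * r := by
    have : ((r : ℤ) - -(r : ℤ)).toNat = 2 * r := by omega
    rw [this]; push_cast; ring
  rw [this]

lemma fconv_ge {H r : ℕ} (hr : 0 < r) (hH : H < P) (g : ZMod P → ℝ) (hg : ∀ x, 0 ≤ g x)
    (x : ZMod P) (a : ℝ) (ha : 0 ≤ a) (hga : ∀ u : ℤ, |u| ≤ r → a ≤ g (x + u)) :
    a * (1 - (P : ℝ) / (2 * (H + 1) * r)) ≤ fconv H g x := by
  have hP : (0 : ℝ) < P := by exact_mod_cast Nat.pos_of_ne_zero (NeZero.ne P)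
  unfold fconv
  rw [le_div_iff₀ hP]
  have h0 : ∑ u, fejer H (x - u) * g u = ∑ u, fejer H u * g (x - u) :=
    Fintype.sum_equiv (Equiv.subLeft x) _ _ fun u => by simp
  rw [h0]
  have h1 : ∑ u ∈ (univ : Finset (ZMod P)) with ¬ r < u.valMinAbs.natAbs, fejer H u * a ≤
      ∑ u, fejer H u * g (x - u) := by
    refine (sum_le_sum (f := fun u => fejer H u * a) (g := fun u => fejer H u * g (x - u)) ?_).trans
      (sum_le_sum_of_subset_of_nonneg (filter_subset _ _)
        (fun u _ _ => mul_nonneg (fejer_nonneg _ _) (hg _)))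
    intro u hu
    rw [mem_filter] at hu
    refine mul_le_mul_of_nonneg_left ?_ (fejer_nonneg _ _)
    have : x - u = x + ((-u.valMinAbs : ℤ) : ZMod P) := by
      rw [Int.cast_neg, ZMod.coe_valMinAbs]; ring
    rw [this]
    refine hga _ ?_
    rw [abs_neg, Int.abs_eq_natAbs]
    omega
  have h2 := sum_filter_add_sum_filter_not (univ : Finset (ZMod P))
    (fun u => r < u.valMinAbs.natAbs) (fun u => fejer H u)
  have h3 := sum_tail_le (P := P) H r hr
  rw [sum_fejer hH] at h2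
  rw [← sum_mul] at h1
  refine le_trans ?_ h1
  have h4 : ∑ u ∈ (univ : Finset (ZMod P)) with ¬ r < u.valMinAbs.natAbs, fejer H u ≥
      P - (P : ℝ) ^ 2 / (2 * (H + 1) * r) := by linarith
  calc a * (1 - (P : ℝ) / (2 * (H + 1) * r)) * P = (P - (P : ℝ) ^ 2 / (2 * (H + 1) * r)) * a := by
        field_simp
    _ ≤ _ := mul_le_mul_of_nonneg_right h4 ha

lemma fconv_le {H r : ℕ} (hr : 0 < r) (hH : H < P) (g : ZMod P → ℝ) (hg : ∀ x, 0 ≤ g x)
    (B : ℝ) (hB : ∀ x, g x ≤ B)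
    (x : ZMod P) (a : ℝ) (ha : 0 ≤ a) (hga : ∀ u : ℤ, |u| ≤ r → g (x + u) ≤ a) :
    fconv H g x ≤ a + B * ((P : ℝ) / (2 * (H + 1) * r)) := by
  have hP : (0 : ℝ) < P := by exact_mod_cast Nat.pos_of_ne_zero (NeZero.ne P)
  have hB0 : 0 ≤ B := (hg 0).trans (hB 0)
  unfold fconv
  rw [div_le_iff₀ hP]
  have h0 : ∑ u, fejer H (x - u) * g u = ∑ u, fejer H u * g (x - u) :=
    Fintype.sum_equiv (Equiv.subLeft x) _ _ fun u => by simp
  rw [h0, ← sum_filter_add_sum_filter_not (univ : Finset (ZMod P))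
    (fun u => r < u.valMinAbs.natAbs)]
  have h1 : ∑ u ∈ (univ : Finset (ZMod P)) with ¬ r < u.valMinAbs.natAbs, fejer H u * g (x - u) ≤
      a * P := by
    calc _ ≤ ∑ u ∈ (univ : Finset (ZMod P)) with ¬ r < u.valMinAbs.natAbs, fejer H u * a := by
          refine sum_le_sum ?_
          intro u hu
          rw [mem_filter] at hu
          refine mul_le_mul_of_nonneg_left ?_ (fejer_nonneg _ _)
          have : x - u = x + ((-u.valMinAbs : ℤ) : ZMod P) := by
            rw [Int.cast_neg, ZMod.coe_valMinAbs]; ring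
          rw [this]
          refine hga _ ?_
          rw [abs_neg, Int.abs_eq_natAbs]
          omega
      _ ≤ ∑ u : ZMod P, fejer H u * a :=
          sum_le_sum_of_subset_of_nonneg (filter_subset _ _)
            (fun u _ _ => mul_nonneg (fejer_nonneg _ _) ha)
      _ = a * P := by rw [← sum_mul, sum_fejer hH, mul_comm]
  have h2 : ∑ u ∈ (univ : Finset (ZMod P)) with r < u.valMinAbs.natAbs, fejer H u * g (x - u) ≤
      B * ((P : ℝ) ^ 2 / (2 * (H + 1) * r)) := by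
    calc _ ≤ ∑ u ∈ (univ : Finset (ZMod P)) with r < u.valMinAbs.natAbs, fejer H u * B :=
          sum_le_sum fun u _ => mul_le_mul_of_nonneg_left (hB _) (fejer_nonneg _ _)
      _ = B * ∑ u ∈ (univ : Finset (ZMod P)) with r < u.valMinAbs.natAbs, fejer H u := by
          rw [← sum_mul, mul_comm]
      _ ≤ _ := mul_le_mul_of_nonneg_left (sum_tail_le (P := P) H r hr) hB0
  calc _ ≤ B * ((P : ℝ) ^ 2 / (2 * (H + 1) * r)) + a * P := add_le_add h2 h1
    _ = _ := by field_simp; ring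

/-- **Fejér majorant** of a nonnegative function of bounded variation on `ZMod P`. -/
theorem exists_majorant {H r : ℕ} (hr : 0 < r) (hH : H < P)
    (hHr : (P : ℝ) ≤ (H + 1) * r) (f : ZMod P → ℝ) (hf : ∀ x, 0 ≤ f x) :
    ∃ c : ℤ → ℂ, ∃ F : ZMod P → ℝ,
      (∀ x, (F x : ℂ) = ∑ k ∈ Icc (-(H : ℤ)) H, c k * stdAddChar ((k : ZMod P) * x)) ∧
      (∀ x, f x ≤ F x) ∧
      (∀ k, ‖c k‖ ≤ (1 + (P : ℝ) / ((H + 1) * r)) * ((∑ u, f u) / P + 2 * r / P * cvar f)) ∧
      (∃ c0 : ℝ, c 0 = c0 ∧ (∀ k, ‖c k‖ ≤ c0)) := by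
  have hP : (0 : ℝ) < P := by exact_mod_cast Nat.pos_of_ne_zero (NeZero.ne P)
  have hr' : (0 : ℝ) < r := by exact_mod_cast hr
  have hmem : (0 : ℤ) ∈ Icc (-(r : ℤ)) r := by rw [mem_Icc]; omega
  set g : ZMod P → ℝ := fun x => (Icc (-(r : ℤ)) r).sup' ⟨0, hmem⟩ (fun u => f (x + u)) with hg
  have hgf : ∀ x, ∀ u : ℤ, |u| ≤ r → f (x + u) ≤ g x := by
    intro x u hu
    rw [hg]
    exact le_sup' (f := fun u : ℤ => f (x + (u : ZMod P))) (by rw [mem_Icc]; exact abs_le.1 hu)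
  have hg0 : ∀ x, 0 ≤ g x := fun x => (hf (x + ((0 : ℤ) : ZMod P))).trans (hgf x 0 (by simp))
  have hgl : ∀ x, g x ≤ f x + lvar r f x := by
    intro x
    rw [hg]
    refine sup'_le _ _ fun u hu => ?_
    rw [mem_Icc] at hu
    have := abs_sub_le_lvar r f x u (abs_le.2 hu)
    rw [abs_le] at this
    linarith [this.2]
  set τ : ℝ := (P : ℝ) / (2 * (H + 1) * r) with hτ
  have hτ0 : 0 ≤ τ := by positivity
  have hτ1 : τ ≤ 1 / 2 := by
    rw [hτ, div_le_iff₀ (by positivity)]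
    nlinarith
  have h1τ : 0 < 1 - τ := by linarith
  refine ⟨fun k => ((1 - τ)⁻¹ : ℝ) * fcoef H g k, fun x => (1 - τ)⁻¹ * fconv H g x, ?_, ?_, ?_, ?_⟩
  · intro x
    push_cast
    rw [fconv_eq, mul_sum]
    refine sum_congr rfl fun k _ => ?_
    push_cast
    ring
  · intro x
    have := fconv_ge (H := H) hr hH g hg0 x (f x) (hf x) (by
      intro u hu
      have := hgf (x + u) (-u) (by rwa [abs_neg])
      simpa using this)
    show f x ≤ (1 - τ)⁻¹ * fconv H g x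
    rw [inv_mul_eq_div, le_div_iff₀ h1τ]
    exact this
  · intro k
    rw [norm_mul, Complex.norm_real, Real.norm_of_nonneg (by positivity)]
    have h1 := norm_fcoef_le H g hg0 k
    have h2 : (∑ u, g u) / P ≤ (∑ u, f u) / P + 2 * r / P * cvar f := by
      have : ∑ u, g u ≤ ∑ u, f u + 2 * r * cvar f := by
        calc _ ≤ ∑ u, (f u + lvar r f u) := sum_le_sum fun u _ => hgl u
          _ = _ := by rw [sum_add_distrib, sum_lvar]
      calc (∑ u, g u) / P ≤ (∑ u, f u + 2 * r * cvar f) / P := by gcongr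
        _ = _ := by ring
    have h3 : (1 - τ)⁻¹ ≤ 1 + (P : ℝ) / ((H + 1) * r) := by
      have : (P : ℝ) / ((H + 1) * r) = 2 * τ := by rw [hτ]; field_simp
      rw [this, inv_le_iff_one_le_mul₀ h1τ]
      nlinarith
    have h4 : 0 ≤ (∑ u, g u) / P := div_nonneg (sum_nonneg fun u _ => hg0 u) hP.le
    calc _ ≤ (1 + (P : ℝ) / ((H + 1) * r)) * ((∑ u, g u) / P) :=
          mul_le_mul h3 h1 (norm_nonneg _) (by positivity)
      _ ≤ _ := by gcongr
  · refine ⟨(1 - τ)⁻¹ * ((∑ u, g u) / P), ?_, ?_⟩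
    · simp only [fcoef_zero]; push_cast; ring
    · intro k
      rw [norm_mul, Complex.norm_real, Real.norm_of_nonneg (by positivity)]
      exact mul_le_mul_of_nonneg_left (norm_fcoef_le H g hg0 k) (by positivity)

/-- **Fejér minorant** of a nonnegative bounded function of bounded variation on `ZMod P`. -/
theorem exists_minorant {H r : ℕ} (hr : 0 < r) (hH : H < P)
    (f : ZMod P → ℝ) (hf : ∀ x, 0 ≤ f x) (B : ℝ) (hB : ∀ x, f x ≤ B) :
    ∃ c : ℤ → ℂ, ∃ F : ZMod P → ℝ,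
      (∀ x, (F x : ℂ) = ∑ k ∈ Icc (-(H : ℤ)) H, c k * stdAddChar ((k : ZMod P) * x)) ∧
      (∀ x, F x ≤ f x) ∧
      (∀ k, k ≠ 0 → ‖c k‖ ≤ (∑ u, f u) / P) ∧
      (∃ c0 : ℝ, c 0 = c0 ∧ c0 ≤ (∑ u, f u) / P ∧
        (∑ u, f u) / P - 2 * r / P * cvar f - B * (P / (2 * (H + 1) * r)) ≤ c0) := by
  have hP : (0 : ℝ) < P := by exact_mod_cast Nat.pos_of_ne_zero (NeZero.ne P)
  have hr' : (0 : ℝ) < r := by exact_mod_cast hr
  have hB0 : 0 ≤ B := (hf 0).trans (hB 0)
  have hmem : (0 : ℤ) ∈ Icc (-(r : ℤ)) r := by rw [mem_Icc]; omega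
  set g : ZMod P → ℝ := fun x => (Icc (-(r : ℤ)) r).inf' ⟨0, hmem⟩ (fun u => f (x + u)) with hg
  have hgf : ∀ x, ∀ u : ℤ, |u| ≤ r → g x ≤ f (x + u) := by
    intro x u hu
    rw [hg]
    exact inf'_le (f := fun u : ℤ => f (x + (u : ZMod P))) (by rw [mem_Icc]; exact abs_le.1 hu)
  have hg0 : ∀ x, 0 ≤ g x := by
    intro x
    rw [hg]
    exact le_inf' _ _ fun u _ => hf _
  have hgf0 : ∀ x, g x ≤ f x := fun x => by simpa using hgf x 0 (by simp)
  have hgB : ∀ x, g x ≤ B := fun x => (hgf0 x).trans (hB x)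
  have hgl : ∀ x, f x - lvar r f x ≤ g x := by
    intro x
    rw [hg]
    refine le_inf' _ _ fun u hu => ?_
    rw [mem_Icc] at hu
    have := abs_sub_le_lvar r f x u (abs_le.2 hu)
    rw [abs_le] at this
    linarith [this.1]
  set τ : ℝ := (P : ℝ) / (2 * (H + 1) * r) with hτ
  have hτ0 : 0 ≤ τ := by positivity
  have hmean : (∑ u, g u) / P ≤ (∑ u, f u) / P := by
    gcongr with u _
    exact hgf0 u
  refine ⟨fun k => fcoef H g k - (if k = 0 then ((B * τ : ℝ) : ℂ) else 0),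
    fun x => fconv H g x - B * τ, ?_, ?_, ?_, ?_⟩
  · intro x
    push_cast
    rw [fconv_eq]
    have h0 : (0 : ℤ) ∈ Icc (-(H : ℤ)) H := by rw [mem_Icc]; omega
    have : ∑ k ∈ Icc (-(H : ℤ)) H, (fcoef H g k - (if k = 0 then ((B : ℂ) * (τ : ℂ)) else 0)) *
        stdAddChar ((k : ZMod P) * x) = ∑ k ∈ Icc (-(H : ℤ)) H, (fcoef H g k *
        stdAddChar ((k : ZMod P) * x) - (if k = 0 then ((B : ℂ) * (τ : ℂ)) else 0)) := by
      refine sum_congr rfl fun k _ => ?_
      split_ifs with hk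
      · subst hk; simp
      · ring
    rw [this, sum_sub_distrib, sum_ite_eq' _ (0 : ℤ), if_pos h0]
  · intro x
    have := fconv_le (H := H) hr hH g hg0 B hgB x (f x) (hf x) (by
      intro u hu
      have := hgf (x + u) (-u) (by rwa [abs_neg])
      simpa using this)
    rw [← hτ] at this
    linarith
  · intro k hk
    simp only [if_neg hk, sub_zero]
    exact (norm_fcoef_le H g hg0 k).trans hmean
  · refine ⟨(∑ u, g u) / P - B * τ, ?_, ?_, ?_⟩
    · simp only [fcoef_zero, if_true]; push_cast; ring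
    · have := mul_nonneg hB0 hτ0
      linarith
    · have : ∑ u, f u - 2 * r * cvar f ≤ ∑ u, g u := by
        calc _ = ∑ u, (f u - lvar r f u) := by rw [sum_sub_distrib, sum_lvar]
          _ ≤ _ := sum_le_sum fun u _ => hgl u
      have h2 : (∑ u, f u) / P - 2 * r / P * cvar f ≤ (∑ u, g u) / P := by
        calc (∑ u, f u) / P - 2 * r / P * cvar f = (∑ u, f u - 2 * r * cvar f) / P := by ring
          _ ≤ _ := by gcongr
      linarith

end Crest.Agent.R225.UB
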