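import Mathlib

/-!
# Row 225 (S0347): combinatorics of bounded relations (rank-free form)

`relF v Z H` : the set of integer vectors `j : Z → ℤ`, `|j a| ≤ H`, with `∑ j a • v a = 0`.
For affine relations of atoms `g ∈ ℤ^m` use `V = ℤ × (Fin m → ℤ)`, `v g = (1, g)`.
-/

set_option autoImplicit false

namespace Crest.Agent.R225.UB

open Finset

section rel

variable {ι V : Type*} [AddCommGroup V]

open Classical in
/-- the `H`-bounded relations of the family `v` on the finite set `Z` -/
noncomputable def relF (v : ι → V) (Z : Finset ι) (H : ℕ) : Finset (Z → ℤ) :=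
  (Fintype.piFinset fun _ : Z => Finset.Icc (-(H:ℤ)) H).filter (fun j => ∑ a, j a • v a = 0)

/-- the number of `H`-bounded relations -/
noncomputable def rel (v : ι → V) (Z : Finset ι) (H : ℕ) : ℕ := (relF v Z H).card

lemma mem_relF {v : ι → V} {Z : Finset ι} {H : ℕ} {j : Z → ℤ} :
    j ∈ relF v Z H ↔ (∀ a, |j a| ≤ H) ∧ ∑ a, j a • v a = 0 := by
  classical
  simp only [relF, mem_filter, Fintype.mem_piFinset, mem_Icc, abs_le]

lemma zero_mem_relF (v : ι → V) (Z : Finset ι) (H : ℕ) : (0 : Z → ℤ) ∈ relF v Z H := by
  rw [mem_relF]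
  simp

lemma one_le_rel (v : ι → V) (Z : Finset ι) (H : ℕ) : 1 ≤ rel v Z H :=
  Finset.card_pos.mpr ⟨_, zero_mem_relF v Z H⟩

lemma relF_mono (v : ι → V) (Z : Finset ι) {H H' : ℕ} (h : H ≤ H') :
    relF v Z H ⊆ relF v Z H' := by
  intro j hj
  rw [mem_relF] at hj ⊢
  exact ⟨fun a => (hj.1 a).trans (by exact_mod_cast h), hj.2⟩

lemma rel_mono (v : ι → V) (Z : Finset ι) {H H' : ℕ} (h : H ≤ H') :
    rel v Z H ≤ rel v Z H' :=
  card_le_card (relF_mono v Z h)

/-- differences of relations -/
lemma sub_mem_relF {v : ι → V} {Z : Finset ι} {H : ℕ} {j j' : Z → ℤ}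
    (hj : ∑ a, j a • v a = 0) (hj' : ∑ a, j' a • v a = 0) (hb : ∀ a, |j a - j' a| ≤ H) :
    j - j' ∈ relF v Z H := by
  rw [mem_relF]
  refine ⟨fun a => by simpa using hb a, ?_⟩
  simp only [Pi.sub_apply, sub_smul, Finset.sum_sub_distrib, hj, hj', sub_zero]

/-- (b) halving the box -/
lemma rel_two_mul_le (v : ι → V) (Z : Finset ι) (H : ℕ) :
    rel v Z (2 * H) ≤ 4 ^ Z.card * rel v Z H := by
  classical
  have key : ∀ b ∈ (relF v Z (2 * H)).image (fun j => fun a : Z => (j a + 2 * H) / ((H:ℤ) + 1)),
      ((relF v Z (2 * H)).filter (fun j => (fun a : Z => (j a + 2 * H) / ((H:ℤ) + 1)) = b)).card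
        ≤ rel v Z H := by
    intro b hb
    obtain ⟨j0, hj0, rfl⟩ := Finset.mem_image.mp hb
    refine Finset.card_le_card_of_injOn (fun j => j - j0) ?_ ?_
    · intro j hj
      rw [Finset.mem_coe, Finset.mem_filter] at hj
      obtain ⟨hj, hjb⟩ := hj
      have h1 := (mem_relF.mp hj).2
      have h2 := (mem_relF.mp hj0).2
      refine Finset.mem_coe.mpr (sub_mem_relF h1 h2 ?_)
      intro a
      have h3 : (j a + 2 * H) / ((H:ℤ) + 1) = (j0 a + 2 * H) / ((H:ℤ) + 1) := congrFun hjb a
      have hH : (0:ℤ) < (H:ℤ) + 1 := by positivity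
      have e1 := Int.emod_add_mul_ediv (j a + 2 * H) ((H:ℤ) + 1)
      have e2 := Int.emod_add_mul_ediv (j0 a + 2 * H) ((H:ℤ) + 1)
      have m1 := Int.emod_nonneg (j a + 2 * H) hH.ne'
      have m2 := Int.emod_nonneg (j0 a + 2 * H) hH.ne'
      have l1 := Int.emod_lt_of_pos (j a + 2 * H) hH
      have l2 := Int.emod_lt_of_pos (j0 a + 2 * H) hH
      rw [h3] at e1
      rw [abs_le]
      constructor <;> linarith
    · intro j _ j' _ h
      simpa using h
  calc rel v Z (2 * H) = (relF v Z (2 * H)).card := rfl
    _ = ∑ b ∈ (relF v Z (2 * H)).image (fun j => fun a : Z => (j a + 2 * H) / ((H:ℤ) + 1)),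
        ((relF v Z (2 * H)).filter
          (fun j => (fun a : Z => (j a + 2 * H) / ((H:ℤ) + 1)) = b)).card :=
        Finset.card_eq_sum_card_image _ _
    _ ≤ ∑ b ∈ (relF v Z (2 * H)).image (fun j => fun a : Z => (j a + 2 * H) / ((H:ℤ) + 1)),
        rel v Z H := Finset.sum_le_sum key
    _ = ((relF v Z (2 * H)).image
        (fun j => fun a : Z => (j a + 2 * H) / ((H:ℤ) + 1))).card * rel v Z H := by
        rw [Finset.sum_const, smul_eq_mul]
    _ ≤ 4 ^ Z.card * rel v Z H := by
        gcongr
        have hsub : (relF v Z (2 * H)).image (fun j => fun a : Z => (j a + 2 * H) / ((H:ℤ) + 1))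
            ⊆ Fintype.piFinset (fun _ : Z => Finset.Icc (0:ℤ) 3) := by
          intro b hb
          obtain ⟨j, hj, rfl⟩ := Finset.mem_image.mp hb
          rw [Fintype.mem_piFinset]
          intro a
          have h1 := (mem_relF.mp hj).1 a
          rw [abs_le] at h1
          push_cast at h1
          have hH : (0:ℤ) < (H:ℤ) + 1 := by positivity
          rw [Finset.mem_Icc]
          constructor
          · apply Int.ediv_nonneg <;> linarith
          · apply Int.lt_add_one_iff.mp
            rw [Int.ediv_lt_iff_lt_mul hH]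
            linarith
        calc _ ≤ (Fintype.piFinset (fun _ : Z => Finset.Icc (0:ℤ) 3)).card := card_le_card hsub
          _ = 4 ^ Z.card := by
            rw [Fintype.card_piFinset]
            simp

/-- (c) adding one atom -/
lemma rel_insert_le [DecidableEq ι] (v : ι → V) (Z : Finset ι) (a₀ : ι) (H : ℕ) :
    rel v (insert a₀ Z) H ≤ (2 * H + 1) * rel v Z (2 * H) := by
  classical
  by_cases ha : a₀ ∈ Z
  · rw [Finset.insert_eq_of_mem ha]
    calc rel v Z H ≤ rel v Z (2 * H) := rel_mono v Z (by omega)
      _ ≤ (2 * H + 1) * rel v Z (2 * H) := Nat.le_mul_of_pos_left _ (by omega)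
  set a1 : {x // x ∈ insert a₀ Z} := ⟨a₀, mem_insert_self _ _⟩ with ha1
  let inc : {x // x ∈ Z} → {x // x ∈ insert a₀ Z} := fun z => ⟨z.1, mem_insert_of_mem z.2⟩
  have hinc : Function.Injective inc := by
    intro z z' h
    have := congrArg Subtype.val h
    exact Subtype.ext this
  have hcases : ∀ x : {x // x ∈ insert a₀ Z}, x = a1 ∨ ∃ z, x = inc z := by
    rintro ⟨x, hx⟩
    rcases mem_insert.mp hx with h | h
    · left; exact Subtype.ext h
    · right; exact ⟨⟨x, h⟩, rfl⟩
  have hsum : ∀ F : {x // x ∈ insert a₀ Z} → V, ∑ x, F x = F a1 + ∑ z, F (inc z) := by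
    intro F
    have h1 : (Finset.univ : Finset {x // x ∈ insert a₀ Z})
        = insert a1 (Finset.univ.image inc) := by
      ext x
      simp only [mem_univ, mem_insert, mem_image, true_and, true_iff]
      rcases hcases x with h | ⟨z, h⟩
      · exact Or.inl h
      · exact Or.inr ⟨z, h.symm⟩
    have h2 : a1 ∉ Finset.univ.image inc := by
      intro h
      obtain ⟨z, _, hz⟩ := mem_image.mp h
      have h3 : (z : ι) = a₀ := congrArg Subtype.val hz
      exact ha (h3 ▸ z.2)
    rw [h1, Finset.sum_insert h2, Finset.sum_image (fun x _ y _ h => hinc h)]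
  have key : ∀ b ∈ Finset.Icc (-(H:ℤ)) H,
      ((relF v (insert a₀ Z) H).filter (fun j => j a1 = b)).card ≤ rel v Z (2 * H) := by
    intro b hb
    rcases ((relF v (insert a₀ Z) H).filter (fun j => j a1 = b)).eq_empty_or_nonempty with h | h
    · rw [h]; simp
    obtain ⟨j0, hj0⟩ := h
    rw [mem_filter] at hj0
    refine Finset.card_le_card_of_injOn (fun j => fun z => (j - j0) (inc z)) ?_ ?_
    · intro j hj
      rw [Finset.mem_coe, Finset.mem_filter] at hj
      obtain ⟨hj, hjb⟩ := hj
      have h1 := mem_relF.mp hj
      have h2 := mem_relF.mp hj0.1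
      rw [Finset.mem_coe, mem_relF]
      constructor
      · intro z
        have e1 := h1.1 (inc z)
        have e2 := h2.1 (inc z)
        simp only [Pi.sub_apply]
        push_cast
        rw [abs_le] at e1 e2 ⊢
        constructor <;> linarith
      · have e1 := h1.2
        have e2 := h2.2
        rw [hsum] at e1 e2
        have e3 : j a1 = j0 a1 := by rw [hjb, hj0.2]
        simp only [Pi.sub_apply, sub_smul, Finset.sum_sub_distrib]
        rw [e3] at e1
        have e4 : ∑ z, j (inc z) • v (inc z) = ∑ z, j0 (inc z) • v (inc z) := by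
          have := e1.trans e2.symm
          exact add_left_cancel this
        exact sub_eq_zero.mpr e4
    · intro j hj j' hj' h
      rw [Finset.mem_coe, Finset.mem_filter] at hj hj'
      funext x
      rcases hcases x with hx | ⟨z, hx⟩
      · rw [hx, hj.2, hj'.2]
      · rw [hx]
        have := congrFun h z
        simpa using this
  have hmaps : ∀ j ∈ relF v (insert a₀ Z) H, j a1 ∈ Finset.Icc (-(H:ℤ)) H := by
    intro j hj
    have := (mem_relF.mp hj).1 a1
    rw [abs_le] at this
    exact Finset.mem_Icc.mpr this
  calc rel v (insert a₀ Z) H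
      = ∑ b ∈ Finset.Icc (-(H:ℤ)) H,
        ((relF v (insert a₀ Z) H).filter (fun j => j a1 = b)).card :=
        Finset.card_eq_sum_card_fiberwise hmaps
    _ ≤ ∑ b ∈ Finset.Icc (-(H:ℤ)) H, rel v Z (2 * H) := Finset.sum_le_sum key
    _ = (2 * H + 1) * rel v Z (2 * H) := by
        rw [Finset.sum_const, smul_eq_mul]
        congr 1
        simp
        omega

end rel

section indep

/-- a subspace of `ι → K` is determined by `finrank` coordinates -/
lemma exists_coords {ι : Type*} [Fintype ι] (K : Type*) [Field K] (U : Submodule K (ι → K)) :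
    ∃ s : Finset ι, s.card ≤ Module.finrank K U ∧ ∀ u ∈ U, (∀ a ∈ s, u a = 0) → u = 0 := by
  classical
  induction h : Module.finrank K U using Nat.strong_induction_on generalizing U with
  | _ n ih =>
    by_cases hU : U = ⊥
    · refine ⟨∅, by simp, ?_⟩
      intro u hu _
      rw [hU] at hu
      simpa using hu
    · obtain ⟨u, hu, hu0⟩ := Submodule.exists_mem_ne_zero_of_ne_bot hU
      obtain ⟨a, ha⟩ := Function.ne_iff.mp hu0
      have hlt : U ⊓ LinearMap.ker (LinearMap.proj (R := K) (φ := fun _ : ι => K) a) < U := by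
        refine lt_of_le_of_ne inf_le_left ?_
        intro he
        rw [inf_eq_left] at he
        have := he hu
        rw [LinearMap.mem_ker] at this
        exact ha this
      have hr := Submodule.finrank_lt_finrank_of_lt hlt
      rw [h] at hr
      obtain ⟨s, hs, hs'⟩ := ih _ hr _ rfl
      refine ⟨insert a s, ?_, ?_⟩
      · calc (insert a s).card ≤ s.card + 1 := card_insert_le _ _
          _ ≤ n := by omega
      · intro w hw hw0
        exact hs' w ⟨hw, LinearMap.mem_ker.mpr (hw0 a (mem_insert_self _ _))⟩
          (fun b hb => hw0 b (mem_insert_of_mem hb))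

/-- cast of an integer vector -/
def castQ {ι : Type*} (j : ι → ℤ) : ι → ℚ := fun a => (j a : ℚ)

open Classical in
/-- number of integer points of a box in a subspace -/
lemma card_filter_mem_le {ι : Type*} [Fintype ι] (S : Finset (ι → ℤ)) (H : ℕ)
    (hb : ∀ j ∈ S, ∀ a, |j a| ≤ H) (U : Submodule ℚ (ι → ℚ)) :
    (S.filter (fun j => castQ j ∈ U)).card ≤ (2 * H + 1) ^ (Module.finrank ℚ U) := by
  classical
  obtain ⟨s, hs, hs'⟩ := exists_coords ℚ U
  have h1 : (S.filter (fun j => castQ j ∈ U)).card
      ≤ (Fintype.piFinset (fun _ : s => Finset.Icc (-(H:ℤ)) H)).card := by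
    refine Finset.card_le_card_of_injOn (fun j => fun a : s => j a) ?_ ?_
    · intro j hj
      rw [Finset.mem_coe, mem_filter] at hj
      rw [Finset.mem_coe, Fintype.mem_piFinset]
      intro a
      have := hb j hj.1 a
      rw [abs_le] at this
      exact Finset.mem_Icc.mpr this
    · intro j hj j' hj' h
      rw [Finset.mem_coe, mem_filter] at hj hj'
      have hd : castQ j - castQ j' = 0 := by
        apply hs' _ (U.sub_mem hj.2 hj'.2)
        intro a ha
        have := congrFun h ⟨a, ha⟩
        simp only at this
        simp [castQ, this]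
      funext a
      have := congrFun hd a
      simp only [castQ, Pi.sub_apply, Pi.zero_apply, sub_eq_zero] at this
      exact_mod_cast this
  refine h1.trans ?_
  rw [Fintype.card_piFinset]
  have h2 : (Finset.Icc (-(H:ℤ)) H).card = 2 * H + 1 := by
    simp
    omega
  simp only [h2, Finset.prod_const, Finset.card_univ, Fintype.card_coe]
  exact Nat.pow_le_pow_right (by omega) hs

open Classical in
/-- the independent `k`-tuples of a finite set of integer vectors -/
noncomputable def indTuples {ι : Type*} (S : Finset (ι → ℤ)) (k : ℕ) :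
    Finset (Fin k → ι → ℤ) :=
  (Fintype.piFinset (fun _ : Fin k => S)).filter
    (fun f => LinearIndependent ℚ (fun i => castQ (f i)))

lemma mem_indTuples {ι : Type*} {S : Finset (ι → ℤ)} {k : ℕ} {f : Fin k → ι → ℤ} :
    f ∈ indTuples S k ↔ (∀ i, f i ∈ S) ∧ LinearIndependent ℚ (fun i => castQ (f i)) := by
  simp [indTuples, Fintype.mem_piFinset]

/-- (d) many independent tuples -/
lemma pow_le_card_indTuples {ι : Type*} [Fintype ι] (S : Finset (ι → ℤ)) (H : ℕ)
    (hb : ∀ j ∈ S, ∀ a, |j a| ≤ H) (R k : ℕ) (hR : R ≤ S.card)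
    (hR2 : 2 * (2 * H + 1) ^ k ≤ R) :
    R ^ k ≤ 2 ^ k * (indTuples S k).card := by
  classical
  have main : ∀ i ≤ k, R ^ i ≤ 2 ^ i * (indTuples S i).card := by
    intro i
    induction i with
    | zero =>
      intro _
      have : 1 ≤ (indTuples S 0).card := by
        apply Finset.card_pos.mpr
        refine ⟨Fin.elim0, ?_⟩
        rw [mem_indTuples]
        exact ⟨fun i => i.elim0, linearIndependent_empty_type⟩
      simpa using this
    | succ i ih =>
      intro hi
      have ih' := ih (by omega)
      -- the sigma set injects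
      have hcard : ∑ f ∈ indTuples S i,
          (S.filter (fun x => castQ x ∉ Submodule.span ℚ (Set.range fun l => castQ (f l)))).card
          ≤ (indTuples S (i+1)).card := by
        rw [← Finset.card_sigma]
        refine Finset.card_le_card_of_injOn
          (fun p : (Σ _ : Fin i → ι → ℤ, ι → ℤ) => (Fin.cons p.2 p.1 : Fin (i+1) → ι → ℤ)) ?_ ?_
        · rintro ⟨f, x⟩ hp
          rw [Finset.mem_coe, Finset.mem_sigma] at hp
          obtain ⟨hf, hx⟩ := hp
          simp only at hf hx
          rw [mem_filter] at hx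
          rw [mem_indTuples] at hf
          rw [Finset.mem_coe, mem_indTuples]
          refine ⟨?_, ?_⟩
          · intro l
            refine Fin.cases ?_ (fun l => ?_) l
            · simpa using hx.1
            · simpa using hf.1 l
          · have he : (fun l : Fin (i+1) => castQ ((Fin.cons x f : Fin (i+1) → ι → ℤ) l))
                = (Fin.cons (castQ x) (fun l => castQ (f l)) : Fin (i+1) → ι → ℚ) := by
              funext l
              refine Fin.cases ?_ (fun l => ?_) l <;> simp
            simp only
            rw [he, linearIndependent_finCons]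
            exact ⟨hf.2, hx.2⟩
        · rintro ⟨f, x⟩ _ ⟨f', x'⟩ _ h
          simp only at h
          have hx : x = x' := by
            have := congrFun h 0
            simpa using this
          have hf : f = f' := by
            funext l
            have := congrFun h l.succ
            simpa using this
          subst hx hf
          rfl
      have hterm : ∀ f ∈ indTuples S i, R ≤ 2 * (S.filter
          (fun x => castQ x ∉ Submodule.span ℚ (Set.range fun l => castQ (f l)))).card := by
        intro f hf
        have h1 := Finset.card_filter_add_card_filter_not (s := S)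
          (fun x => castQ x ∈ Submodule.span ℚ (Set.range fun l => castQ (f l)))
        have h2 := card_filter_mem_le S H hb (Submodule.span ℚ (Set.range fun l => castQ (f l)))
        have h3 : Module.finrank ℚ (Submodule.span ℚ (Set.range fun l => castQ (f l))) ≤ k := by
          refine (finrank_range_le_card (R := ℚ) (fun l => castQ (f l))).trans ?_
          simp only [Fintype.card_fin]; omega
        have h4 : (2 * H + 1) ^ (Module.finrank ℚ (Submodule.span ℚ
            (Set.range fun l => castQ (f l)))) ≤ (2 * H + 1) ^ k :=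
          Nat.pow_le_pow_right (by omega) h3
        omega
      calc R ^ (i+1) = R ^ i * R := pow_succ _ _
        _ ≤ (2 ^ i * (indTuples S i).card) * R := Nat.mul_le_mul_right _ ih'
        _ = 2 ^ i * ∑ f ∈ indTuples S i, R := by
            rw [Finset.sum_const, smul_eq_mul]; ring
        _ ≤ 2 ^ i * ∑ f ∈ indTuples S i, 2 * (S.filter
          (fun x => castQ x ∉ Submodule.span ℚ (Set.range fun l => castQ (f l)))).card := by
            gcongr with f hf
            exact hterm f hf
        _ = 2 ^ (i+1) * ∑ f ∈ indTuples S i, (S.filter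
          (fun x => castQ x ∉ Submodule.span ℚ (Set.range fun l => castQ (f l)))).card := by
            rw [← Finset.mul_sum]; ring
        _ ≤ 2 ^ (i+1) * (indTuples S (i+1)).card := by gcongr
  exact main k le_rfl

end indep

end Crest.Agent.R225.UB
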